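import Vale.Agent.P181.NR.H948.LowP
import Vale.Agent.P181.NR.H312.LabP
import Vale.Agent.P181.NR.H89.Blk
import Vale.Agent.P181.NR.H820.GtS
import Vale.Agent.P181.NR.H761.Zed
import Vale.Agent.P181.NR.H201.Spl
import Vale.Agent.P181.NR.H214.Up
import Vale.Agent.P181.MR.H467.Bal
import Vale.Agent.P181.R2.H350.PosAll

set_option autoImplicit false

/-!
# P181, NR: the lower bounds, closed
-/

namespace Vale.Agent.P181.NR.H948

open Vale.Agent.P181.NR

theorem posAll : PosAllS := fun _ _ h h' => Vale.Agent.P181.FR.pos_all h h'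

theorem lowR_closed : LowR :=
  lowR H312.labS H89.blkS H820.gtS (powS H761.zedS) H201.splS MR.H467.balM posAll

theorem lowP_closed : LowP :=
  lowP H312.labP H89.blkS H820.gtS (powS H761.zedS) H201.splS MR.H467.balM posAll

end Vale.Agent.P181.NR.H948
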