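import Vale.Agent.P181.NR.H948.Closed
import Vale.Agent.P181.NR.H964.CoreP

set_option autoImplicit false

/-!
# P181, NR: the numbers, closed
-/

namespace Vale.Agent.P181.NR.H948

open Vale.Agent.P181.NR

theorem coreP_closed : CoreP := H964.coreP lowP_closed H214.upR

end Vale.Agent.P181.NR.H948
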