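import Vale.Agent.P181.NR.H948.Pow
import Vale.Agent.P181.MR.Defs

set_option autoImplicit false

/-!
# P181, NR: the lower bound
-/

open MvPolynomial

namespace Vale.Agent.P181.NR.H948

open Vale.Agent.P181 Vale.Agent.P181.H280 Vale.Agent.P181.H54
open Vale.Agent.P181.H463 (gt)
open Vale.Agent.P181.FR (gw Pos)
open Vale.Agent.P181.NR Vale.Agent.P181.TL Vale.Agent.P181.MR

/-- positivity, the literal of `pos_all` -/
def PosAllS : Prop := ∀ m i : ℕ, 2 ≤ i → i ≤ m → ∃ a0 : ℕ, ∀ (a B : ℕ) (g : ℕ → ℕ),
  a0 ≤ a → 3 * (m + 1) * a ≤ g i → ∑ j ∈ Finset.Icc 1 m, j * g j = a * B → Pos B a m (gw m g)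

lemma gw_anti (m : ℕ) (g : ℕ → ℕ) : Antitone (gw m g) := by
  intro i i' h
  unfold gw
  apply Finset.sum_le_sum_of_subset
  intro x hx
  rw [Finset.mem_Ioc] at hx ⊢
  have : (i : ℕ) ≤ (i' : ℕ) := h
  exact ⟨by omega, hx.2⟩

lemma sum_gw (m : ℕ) (g : ℕ → ℕ) : ∑ i, gw m g i = ∑ j ∈ Finset.Icc 1 m, j * g j := by
  unfold gw
  have h1 : ∀ i : Fin m, ∑ j ∈ Finset.Ioc (i : ℕ) m, g j =
      ∑ j ∈ Finset.Icc 1 m, if (i : ℕ) < j then g j else 0 := by
    intro i
    rw [← Finset.sum_filter]
    apply Finset.sum_congr _ fun _ _ => rfl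
    ext x
    rw [Finset.mem_filter, Finset.mem_Ioc, Finset.mem_Icc]
    constructor
    · rintro ⟨h, h'⟩
      exact ⟨⟨by omega, h'⟩, h⟩
    · rintro ⟨⟨_, h'⟩, h⟩
      exact ⟨h, h'⟩
  rw [Finset.sum_congr rfl fun i _ => h1 i, Finset.sum_comm]
  apply Finset.sum_congr rfl
  intro j hj
  rw [Finset.mem_Icc] at hj
  rw [← Finset.sum_filter, Finset.sum_const, smul_eq_mul]
  congr 1
  have h2 : (Finset.univ.filter fun i : Fin m => (i : ℕ) < j).card = j := by
    rw [Fin.card_filter_val_lt]
    omega
  exact h2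

/-- the two ways to count the degree of the label polynomial -/
lemma lab_deg {m j n q l : ℕ} (hj : j ≤ m) (h : Lab m j n q l) : n * l = j * q := by
  obtain ⟨P, x, ⟨hP1, hP2⟩, hP3, -⟩ := h
  have hP0 : P ≠ 0 := by
    rintro rfl
    exact hP3 (map_zero _)
  obtain ⟨v, hv⟩ := MvPolynomial.ne_zero_iff.1 hP0
  have h1 := hP1.1 v hv
  have h2 := hP2 v hv
  have h3 : ∑ i : Fin m, ∑ k : Fin n, v (i, k) = ∑ k : Fin n, ∑ i : Fin m, v (i, k) :=
    Finset.sum_comm
  rw [Finset.sum_congr rfl fun i _ => h1 i, Finset.sum_congr rfl fun k _ => h2 k,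
    ← Finset.sum_filter, Finset.sum_const, Finset.sum_const, smul_eq_mul, smul_eq_mul,
    Finset.card_univ, Fintype.card_fin] at h3
  have h4 : (Finset.univ.filter fun i : Fin m => (i : ℕ) < j).card = j := by
    rw [Fin.card_filter_val_lt]
    omega
  rw [h4] at h3
  exact h3.symm

/-- one block -/
lemma block (h2 : BlkS) (hB : BalM) {m j n q l a : ℕ} (hj1 : 1 ≤ j) (hj : j ≤ m) (hn : 0 < n)
    (hL : Lab m j n q l) (hl : l ≤ a) (c : ℕ → ℕ)
    (hc : ∑ i ∈ Finset.Icc 1 m, i * c i = n * a) (hq : q ≤ c j) :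
    gt m n (gw m fun i => if i = j then c i - q else c i) ≤
      (n + n * a).choose n * (n.factorial * plethMult n a m (gw m c)) := by
  set c' : ℕ → ℕ := fun i => if i = j then c i - q else c i with hc'
  have e1 : gw m c = fun i => gw m c' i + if (i : ℕ) < j then q else 0 := by
    funext i
    unfold gw
    have : ∀ r ∈ Finset.Ioc (i : ℕ) m, c r = c' r + if r = j then q else 0 := by
      intro r _
      rw [hc']
      by_cases h : r = j
      · subst h
        simp only [if_true]
        omega
      · simp only [if_neg h, Nat.add_zero]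
    rw [Finset.sum_congr rfl this, Finset.sum_add_distrib, Finset.sum_ite_eq']
    congr 1
    by_cases h : (i : ℕ) < j
    · rw [if_pos h, if_pos (Finset.mem_Ioc.2 ⟨h, hj⟩)]
    · rw [if_neg h, if_neg]
      intro h'
      exact h (Finset.mem_Ioc.1 h').1
  have e2 : ∑ i, gw m c' i = n * (a - l) := by
    have h3 : ∑ i, gw m c i = n * a := by rw [sum_gw, hc]
    rw [e1, Finset.sum_add_distrib, ← Finset.sum_filter, Finset.sum_const, smul_eq_mul] at h3
    have h4 : (Finset.univ.filter fun i : Fin m => (i : ℕ) < j).card = j := by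
      rw [Fin.card_filter_val_lt]
      omega
    rw [h4, ← lab_deg hj hL] at h3
    rw [Nat.mul_sub]
    omega
  have h5 := hB m n (Fin n) (fun _ => a - l) Finset.univ (gw m c') (gw_anti m c') hn
    (by rw [Finset.card_univ, Fintype.card_fin])
    (by rw [e2, Finset.sum_const, Finset.card_univ, Fintype.card_fin, smul_eq_mul])
    (fun i hi => absurd (Finset.mem_univ i) hi) (fun _ => e2.ge)
  have h6 := h2 m j n q l a (gw m c') hL hl
  rw [← e1] at h6
  refine h5.trans (Nat.mul_le_mul ?_ h6)
  have h7 : n * (a - l) ≤ n * a := Nat.mul_le_mul_left _ (Nat.sub_le _ _)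
  rw [e2]
  obtain ⟨n', rfl⟩ : ∃ n', n = n' + 1 := ⟨n - 1, by omega⟩
  have h8 : n' + 1 + (n' + 1) * a = (n' + (n' + 1) * a) + 1 := by ring
  rw [h8, Nat.choose_succ_succ]
  refine (Nat.choose_le_choose _ ?_).trans (Nat.le_add_right _ _)
  have : (n' + 1) * (a - l) + (n' + 1) - 1 = n' + (n' + 1) * (a - l) := by omega
  rw [this]
  exact Nat.add_le_add_left h7 _

/-- the rows of the block weight -/
lemma row_le {m n q K B j a : ℕ} (hn : 2 * m < n) (hB : 0 < B)
    (hK : 8 * n * (q + m * m.factorial + 1) ≤ K) (hK' : 6 * (m + 1) ≤ K)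
    (g c : ℕ → ℕ) (hg : K * (a + B) ≤ g j) (hj : j ≤ m) (hq : q ≤ c j)
    (h : ∀ i ∈ Finset.Icc 1 m, g i ≤ 2 * B * c i + 2 * B * m.factorial +
      if i = j then 3 * (m + 1) * a else 0) (i : Fin m) :
    max 1 (gw m g i / (K * B)) ≤
      max 1 (gw m (fun i => if i = j then c i - q else c i) i / (n - 2 * m)) := by
  have h1 : gw m g i ≤ 2 * B * (gw m (fun i => if i = j then c i - q else c i) i + q) +
      2 * B * (m * m.factorial) + if (i : ℕ) < j then 3 * (m + 1) * a else 0 := by
    unfold gw
    beta_reduce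
    have e1 : ∀ r ∈ Finset.Ioc (i : ℕ) m, g r ≤ 2 * B * (if r = j then c r - q else c r) +
        2 * B * m.factorial + (if r = j then 2 * B * q + 3 * (m + 1) * a else 0) := by
      intro r hr
      rw [Finset.mem_Ioc] at hr
      have := h r (Finset.mem_Icc.2 ⟨by omega, hr.2⟩)
      by_cases h' : r = j
      · subst h'
        simp only [if_true] at this ⊢
        have e : 2 * B * (c r - q) + 2 * B * q = 2 * B * c r := by
          rw [← Nat.mul_add, Nat.sub_add_cancel hq]
        omega
      · simp only [if_neg h', Nat.add_zero] at this ⊢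
        exact this
    refine (Finset.sum_le_sum e1).trans ?_
    rw [Finset.sum_add_distrib, Finset.sum_add_distrib, ← Finset.mul_sum, Finset.sum_const,
      Finset.sum_ite_eq', smul_eq_mul, Nat.card_Ioc]
    have e2 : (m - (i : ℕ)) * (2 * B * m.factorial) ≤ 2 * B * (m * m.factorial) := by
      calc (m - (i : ℕ)) * (2 * B * m.factorial) ≤ m * (2 * B * m.factorial) :=
            Nat.mul_le_mul_right _ (Nat.sub_le _ _)
        _ = 2 * B * (m * m.factorial) := by ring
    have e3 : (if j ∈ Finset.Ioc (i : ℕ) m then 2 * B * q + 3 * (m + 1) * a else 0) ≤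
        2 * B * q + if (i : ℕ) < j then 3 * (m + 1) * a else 0 := by
      by_cases h' : (i : ℕ) < j
      · rw [if_pos h', if_pos (Finset.mem_Ioc.2 ⟨h', hj⟩)]
      · rw [if_neg h', if_neg]
        · exact Nat.zero_le _
        · intro h''
          exact h' (Finset.mem_Ioc.1 h'').1
    rw [Nat.mul_add (2 * B)]
    omega
  set et := gw m (fun i => if i = j then c i - q else c i) i with het
  have h2 : gw m g i ≤ 4 * B * (et + q + m * m.factorial) := by
    by_cases h' : (i : ℕ) < j
    · rw [if_pos h'] at h1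
      have h3 : g j ≤ gw m g i := by
        unfold gw
        exact Finset.single_le_sum (f := g) (fun _ _ => Nat.zero_le _)
          (Finset.mem_Ioc.2 ⟨h', hj⟩)
      have h4 : 2 * (3 * (m + 1) * a) ≤ K * (a + B) := by
        calc 2 * (3 * (m + 1) * a) = 6 * (m + 1) * a := by ring
          _ ≤ K * (a + B) := Nat.mul_le_mul hK' (Nat.le_add_right _ _)
      have h5 : 2 * B * (et + q) + 2 * B * (m * m.factorial) =
        2 * (B * (et + q + m * m.factorial)) := by ring
      have h6 : 4 * B * (et + q + m * m.factorial) =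
        4 * (B * (et + q + m * m.factorial)) := by ring
      rw [h5] at h1
      rw [h6]
      omega
    · rw [if_neg h'] at h1
      have h5 : 2 * B * (et + q) + 2 * B * (m * m.factorial) =
        2 * (B * (et + q + m * m.factorial)) := by ring
      have h6 : 4 * B * (et + q + m * m.factorial) =
        4 * (B * (et + q + m * m.factorial)) := by ring
      rw [h5] at h1
      rw [h6]
      omega
  refine max_le (le_max_left _ _) ?_
  set t := gw m g i / (K * B) with ht
  rcases Nat.lt_or_ge t 2 with h3 | h3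
  · exact (Nat.lt_succ_iff.1 h3).trans (le_max_left _ _)
  · refine le_trans ?_ (le_max_right _ _)
    rw [Nat.le_div_iff_mul_le (by omega)]
    set Q := q + m * m.factorial with hQ
    have h4 : t * (K * B) ≤ 4 * B * (et + Q) := by
      refine (Nat.div_mul_le_self _ _).trans (h2.trans (le_of_eq ?_))
      rw [hQ]; ring
    have h5 : t * K ≤ 4 * (et + Q) := by
      have : B * (t * K) ≤ B * (4 * (et + Q)) := by
        calc B * (t * K) = t * (K * B) := by ring
          _ ≤ 4 * B * (et + Q) := h4
          _ = B * (4 * (et + Q)) := by ring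
      exact Nat.le_of_mul_le_mul_left this hB
    have h6 : t * (8 * n * (Q + 1)) ≤ 4 * (et + Q) := (Nat.mul_le_mul_left _ hK).trans h5
    have h7 : t * (n - 2 * m) ≤ t * n := Nat.mul_le_mul_left _ (Nat.sub_le _ _)
    have h8 : Q ≤ t * n * Q := Nat.le_mul_of_pos_left _ (Nat.mul_pos (by omega) (by omega))
    have h9 : t * (8 * n * (Q + 1)) = 8 * (t * n * Q) + 8 * (t * n) := by ring
    rw [h9] at h6
    omega

/-- **[N7]** -/
theorem lowR (h1 : LabS) (h2 : BlkS) (h3 : GtS) (h4 : PowS) (h5 : SplS) (hB : BalM)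
    (hP : PosAllS) : LowR := by
  intro m j n hj hjm hn hdv
  obtain ⟨q, l, -, hL⟩ := h1 m j n hj hjm (by omega)
  obtain ⟨a0, hpos⟩ := hP m j (by omega) hjm
  refine ⟨a0 + l + 8 * n * (q + m * m.factorial + 1) + 6 * (m + 1) + 3 * m * (m + 1) +
    m * m.factorial + 2 * (m.factorial + q) + 1, by omega, ?_⟩
  set K := a0 + l + 8 * n * (q + m * m.factorial + 1) + 6 * (m + 1) + 3 * m * (m + 1) +
    m * m.factorial + 2 * (m.factorial + q) + 1 with hK
  intro a b B g hKa hB0 hb hab hg hs
  have hn0 : 0 < n := by omega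
  have ha0 : 0 < a := by omega
  have k1 : 3 * m * (m + 1) ≤ K := by omega
  have k2 : m * m.factorial ≤ K := by omega
  have k3 : 3 * (m + 1) + 2 * (m.factorial + q) ≤ K := by omega
  obtain ⟨c, c1, c2, c3, c4, c5⟩ := h5 m j n a b B (3 * (m + 1) * a) q g (by omega) hjm hdv hn0
    hB0 hs hb
    (by
      have e1 : m * (3 * (m + 1) * a) ≤ K * a := by
        calc m * (3 * (m + 1) * a) = 3 * m * (m + 1) * a := by ring
          _ ≤ K * a := Nat.mul_le_mul_right _ k1
      have e2 : m * B * m.factorial ≤ K * B := by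
        calc m * B * m.factorial = m * m.factorial * B := by ring
          _ ≤ K * B := Nat.mul_le_mul_right _ k2
      omega)
    (by
      refine le_trans ?_ hg
      have e1 : 3 * (m + 1) * a ≤ K * a := Nat.mul_le_mul_right _ (by omega)
      have e2 : 2 * B * (m.factorial + q) ≤ K * B := by
        calc 2 * B * (m.factorial + q) = 2 * (m.factorial + q) * B := by ring
          _ ≤ K * B := Nat.mul_le_mul_right _ (by omega)
      have e3 : K * (a + B) = K * a + K * B := Nat.mul_add _ _ _
      rw [e3]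
      omega)
  have hnB : n * B ≤ b := by
    have : a * (n * B) ≤ a * b := by
      calc a * (n * B) = n * B * a := by ring
        _ ≤ a * b := by omega
    exact Nat.le_of_mul_le_mul_left this ha0
  -- the rest
  have hrest : Pos (b - n * B) a m (gw m fun i => g i - B * c i) := by
    refine hpos a (b - n * B) _ (by omega) ?_ ?_
    · omega
    · have e1 : ∑ i ∈ Finset.Icc 1 m, i * (g i - B * c i) + B * ∑ i ∈ Finset.Icc 1 m, i * c i =
          ∑ i ∈ Finset.Icc 1 m, i * g i := by
        rw [Finset.mul_sum, ← Finset.sum_add_distrib]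
        apply Finset.sum_congr rfl
        intro i _
        have := c2 i
        calc i * (g i - B * c i) + B * (i * c i) = i * ((g i - B * c i) + B * c i) := by ring
          _ = i * g i := by rw [Nat.sub_add_cancel this]
      rw [c1, hs] at e1
      have e2 : a * (b - n * B) + B * (n * a) = a * b := by
        calc a * (b - n * B) + B * (n * a) = a * ((b - n * B) + n * B) := by ring
          _ = a * b := by rw [Nat.sub_add_cancel hnB]
      omega
  have h6 := Vale.Agent.P181.FR.plethMult_mul (b := n * B) (lam := fun i => B * gw m c i) hrest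
  have e3 : ((fun i => B * gw m c i) + gw m fun i => g i - B * c i) = gw m g := by
    funext i
    rw [Pi.add_apply]
    unfold gw
    rw [Finset.mul_sum, ← Finset.sum_add_distrib]
    apply Finset.sum_congr rfl
    intro r _
    have := c2 r
    omega
  rw [Nat.add_sub_cancel' hnB, e3] at h6
  have h7 := h4 n B a m (gw m c)
  have h8 := block h2 hB (by omega) hjm hn0 hL (by omega) c c1 c3
  have h9 := h3 m n (gw m fun i => if i = j then c i - q else c i) (gw_anti _ _) (by omega)
  have h10 : ∏ i : Fin m, max 1 (gw m g i / (K * B)) ^ (n - 2 * m - 1) ≤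
      (n + n * a).choose n * (n.factorial * plethMult n a m (gw m c)) := by
    refine le_trans ?_ (h9.trans h8)
    apply Finset.prod_le_prod' 
    intro i _
    apply Nat.pow_le_pow_left
    exact row_le (by omega) hB0 (by omega) (by omega) g c hg hjm c3 c5 i
  calc (∏ i : Fin m, max 1 (gw m g i / (K * B)) ^ (n - 2 * m - 1)) ^ B
      ≤ ((n + n * a).choose n * (n.factorial * plethMult n a m (gw m c))) ^ B :=
        Nat.pow_le_pow_left h10 _
    _ = (n + n * a).choose n ^ B * (n.factorial * plethMult n a m (gw m c)) ^ B := mul_pow _ _ _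
    _ ≤ (n + n * a).choose n ^ B *
        ((n * B).factorial * plethMult (n * B) a m fun i => B * gw m c i) :=
        Nat.mul_le_mul_left _ h7
    _ ≤ (n + n * a).choose n ^ B * ((n * B).factorial * plethMult b a m (gw m g)) :=
        Nat.mul_le_mul_left _ (Nat.mul_le_mul_left _ h6)
    _ = (n * B).factorial * (n + n * a).choose n ^ B * plethMult b a m (gw m g) := by ring

end Vale.Agent.P181.NR.H948
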