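import Vale.Agent.P181.NR.H948.Low
import Vale.Agent.P181.NR.DefsP

set_option autoImplicit false

/-!
# P181, NR: the lower bound with explicit constants
-/

open MvPolynomial

namespace Vale.Agent.P181.NR.H948

open Vale.Agent.P181 Vale.Agent.P181.H280 Vale.Agent.P181.H54
open Vale.Agent.P181.H463 (gt)
open Vale.Agent.P181.FR (gw Pos)
open Vale.Agent.P181.NR Vale.Agent.P181.TL Vale.Agent.P181.MR

/-- the core of the lower bound -/
theorem low_core (h2 : BlkS) (h3 : GtS) (h4 : PowS) (h5 : SplS) (hB : BalM) {m j n q l a0 K : ℕ}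
    (hj : 3 ≤ j) (hjm : j ≤ m) (hn : 4 * m + 4 ≤ n) (hdv : m.factorial ∣ n)
    (hL : Lab m j n q l)
    (hpos : ∀ (a B : ℕ) (g : ℕ → ℕ), a0 ≤ a → 3 * (m + 1) * a ≤ g j →
      ∑ j ∈ Finset.Icc 1 m, j * g j = a * B → Pos B a m (gw m g))
    (k0 : a0 + l + 1 ≤ K) (k4 : 8 * n * (q + m * m.factorial + 1) ≤ K) (k5 : 6 * (m + 1) ≤ K)
    (k1 : 3 * m * (m + 1) ≤ K) (k2 : m * m.factorial ≤ K)
    (k3 : 3 * (m + 1) + 2 * (m.factorial + q) ≤ K) :
    ∀ (a b B : ℕ) (g : ℕ → ℕ), K ≤ a → 0 < B → b ≤ 2 * n * B →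
    n * B * a + K * a + K * B ≤ a * b → K * (a + B) ≤ g j →
    ∑ i ∈ Finset.Icc 1 m, i * g i = a * b →
    (∏ i : Fin m, max 1 (gw m g i / (K * B)) ^ (n - 2 * m - 1)) ^ B ≤
      (n * B).factorial * (n + n * a).choose n ^ B * plethMult b a m (gw m g) := by
  intro a b B g hKa hB0 hb hab hg hs
  have hn0 : 0 < n := by omega
  have ha0 : 0 < a := by omega
  obtain ⟨c, c1, c2, c3, c4, c5⟩ := h5 m j n a b B (3 * (m + 1) * a) q g (by omega) hjm hdv hn0
    hB0 hs hb
    (by
      have e1 : m * (3 * (m + 1) * a) ≤ K * a := by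
        calc m * (3 * (m + 1) * a) = 3 * m * (m + 1) * a := by ring
          _ ≤ K * a := Nat.mul_le_mul_right _ k1
      have e2 : m * B * m.factorial ≤ K * B := by
        calc m * B * m.factorial = m * m.factorial * B := by ring
          _ ≤ K * B := Nat.mul_le_mul_right _ k2
      omega)
    (by
      refine le_trans ?_ hg
      have e1 : 3 * (m + 1) * a ≤ K * a := Nat.mul_le_mul_right _ (by omega)
      have e2 : 2 * B * (m.factorial + q) ≤ K * B := by
        calc 2 * B * (m.factorial + q) = 2 * (m.factorial + q) * B := by ring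
          _ ≤ K * B := Nat.mul_le_mul_right _ (by omega)
      have e3 : K * (a + B) = K * a + K * B := Nat.mul_add _ _ _
      rw [e3]
      omega)
  have hnB : n * B ≤ b := by
    have : a * (n * B) ≤ a * b := by
      calc a * (n * B) = n * B * a := by ring
        _ ≤ a * b := by omega
    exact Nat.le_of_mul_le_mul_left this ha0
  -- the rest
  have hrest : Pos (b - n * B) a m (gw m fun i => g i - B * c i) := by
    refine hpos a (b - n * B) _ (by omega) ?_ ?_
    · omega
    · have e1 : ∑ i ∈ Finset.Icc 1 m, i * (g i - B * c i) + B * ∑ i ∈ Finset.Icc 1 m, i * c i =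
          ∑ i ∈ Finset.Icc 1 m, i * g i := by
        rw [Finset.mul_sum, ← Finset.sum_add_distrib]
        apply Finset.sum_congr rfl
        intro i _
        have := c2 i
        calc i * (g i - B * c i) + B * (i * c i) = i * ((g i - B * c i) + B * c i) := by ring
          _ = i * g i := by rw [Nat.sub_add_cancel this]
      rw [c1, hs] at e1
      have e2 : a * (b - n * B) + B * (n * a) = a * b := by
        calc a * (b - n * B) + B * (n * a) = a * ((b - n * B) + n * B) := by ring
          _ = a * b := by rw [Nat.sub_add_cancel hnB]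
      omega
  have h6 := Vale.Agent.P181.FR.plethMult_mul (b := n * B) (lam := fun i => B * gw m c i) hrest
  have e3 : ((fun i => B * gw m c i) + gw m fun i => g i - B * c i) = gw m g := by
    funext i
    rw [Pi.add_apply]
    unfold gw
    rw [Finset.mul_sum, ← Finset.sum_add_distrib]
    apply Finset.sum_congr rfl
    intro r _
    have := c2 r
    omega
  rw [Nat.add_sub_cancel' hnB, e3] at h6
  have h7 := h4 n B a m (gw m c)
  have h8 := block h2 hB (by omega) hjm hn0 hL (by omega) c c1 c3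
  have h9 := h3 m n (gw m fun i => if i = j then c i - q else c i) (gw_anti _ _) (by omega)
  have h10 : ∏ i : Fin m, max 1 (gw m g i / (K * B)) ^ (n - 2 * m - 1) ≤
      (n + n * a).choose n * (n.factorial * plethMult n a m (gw m c)) := by
    refine le_trans ?_ (h9.trans h8)
    apply Finset.prod_le_prod' 
    intro i _
    apply Nat.pow_le_pow_left
    exact row_le (by omega) hB0 (by omega) (by omega) g c hg hjm c3 c5 i
  calc (∏ i : Fin m, max 1 (gw m g i / (K * B)) ^ (n - 2 * m - 1)) ^ B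
      ≤ ((n + n * a).choose n * (n.factorial * plethMult n a m (gw m c))) ^ B :=
        Nat.pow_le_pow_left h10 _
    _ = (n + n * a).choose n ^ B * (n.factorial * plethMult n a m (gw m c)) ^ B := mul_pow _ _ _
    _ ≤ (n + n * a).choose n ^ B *
        ((n * B).factorial * plethMult (n * B) a m fun i => B * gw m c i) :=
        Nat.mul_le_mul_left _ h7
    _ ≤ (n + n * a).choose n ^ B * ((n * B).factorial * plethMult b a m (gw m g)) :=
        Nat.mul_le_mul_left _ (Nat.mul_le_mul_left _ h6)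
    _ = (n * B).factorial * (n + n * a).choose n ^ B * plethMult b a m (gw m g) := by ring


/-- **[P2]** -/
theorem lowP (h1 : LabP) (h2 : BlkS) (h3 : GtS) (h4 : PowS) (h5 : SplS) (hB : BalM)
    (hP : PosAllS) : LowP := by
  intro m j hj hjm
  obtain ⟨D0, hD⟩ := h1 m j hj hjm
  obtain ⟨a0, hpos⟩ := hP m j (by omega) hjm
  set W := a0 + 8 * (m * m.factorial + 1) + 6 * (m + 1) + 3 * m * (m + 1) + m * m.factorial +
    2 * m.factorial + 1 with hW
  refine ⟨D0 + 1 + (11 + W), fun n hn hdv => ?_⟩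
  obtain ⟨q, l, -, hq, hl, hL⟩ := hD n (by omega)
  have hn2 : 2 ≤ n := by omega
  have e1 : n ^ D0 ≤ n ^ (D0 + 1) := Nat.pow_le_pow_right (by omega) (Nat.le_succ _)
  have e2 : n ≤ n ^ (D0 + 1) := Nat.le_self_pow (Nat.succ_ne_zero _) _
  have e3 : 1 ≤ n ^ (D0 + 1) := Nat.one_le_pow _ _ (by omega)
  have e4 : 11 + W ≤ n ^ (11 + W) :=
    (Nat.lt_two_pow_self).le.trans (Nat.pow_le_pow_left hn2 _)
  have e5 : n ^ (D0 + 1) * (11 + W) ≤ n ^ (D0 + 1 + (11 + W)) := by
    rw [pow_add n (D0 + 1)]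
    exact Nat.mul_le_mul_left _ e4
  have e6 : a0 + l + 8 * n * (q + m * m.factorial + 1) + 6 * (m + 1) + 3 * m * (m + 1) +
      m * m.factorial + 2 * (m.factorial + q) + 1 ≤ n ^ (D0 + 1) * (11 + W) := by
    have f1 : n * q ≤ n ^ (D0 + 1) := by
      rw [pow_succ, Nat.mul_comm n q]
      exact Nat.mul_le_mul_right _ hq
    have f2 : 8 * n * (q + m * m.factorial + 1) = 8 * (n * q) + n * (8 * (m * m.factorial + 1)) := by
      ring
    have f3 : n * (8 * (m * m.factorial + 1)) ≤ n ^ (D0 + 1) * (8 * (m * m.factorial + 1)) :=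
      Nat.mul_le_mul_right _ e2
    have f4 : ∀ x : ℕ, x ≤ n ^ (D0 + 1) * x := fun x => Nat.le_mul_of_pos_left _ e3
    have g1 := f4 a0
    have g2 := f4 (6 * (m + 1))
    have g3 := f4 (3 * m * (m + 1))
    have g4 := f4 (m * m.factorial)
    have g5 := f4 (2 * m.factorial)
    have g6 : n ^ (D0 + 1) * (11 + W) = 11 * n ^ (D0 + 1) + (n ^ (D0 + 1) * a0 +
      n ^ (D0 + 1) * (8 * (m * m.factorial + 1)) + n ^ (D0 + 1) * (6 * (m + 1)) +
      n ^ (D0 + 1) * (3 * m * (m + 1)) + n ^ (D0 + 1) * (m * m.factorial) +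
      n ^ (D0 + 1) * (2 * m.factorial) + n ^ (D0 + 1)) := by
      rw [hW]; ring
    rw [g6, f2]
    omega
  have e7 := e6.trans e5
  exact low_core h2 h3 h4 h5 hB hj hjm hn hdv hL hpos (by omega) (by omega) (by omega)
    (by omega) (by omega) (by omega)

end Vale.Agent.P181.NR.H948
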