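import Vale.Agent.P181.NR.Defs
import Vale.Agent.P181.R2.H959.FMul

set_option autoImplicit false

/-!
# P181, NR: equal blocks, from `ZedS`
-/

namespace Vale.Agent.P181.NR.H948

open Vale.Agent.P181 Vale.Agent.P181.H280 Vale.Agent.P181.H54
open Vale.Agent.P181.FR (gw Pos)
open Vale.Agent.P181.NR

/-- A nonzero highest weight vector gives a positive multiplicity. -/
lemma one_le_of_pos {B a m : ℕ} {mu : Fin m → ℕ} (h : Pos B a m mu) :
    1 ≤ plethMult B a m mu := by
  obtain ⟨y, hy, h0⟩ := h
  have h1 := finrank_le_of_inj (LinearMap.toSpanSingleton ℂ (Pleth B a m) y) (⊤ : Submodule ℂ ℂ)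
    (hwSpace mu (plethAct B a m))
    (fun c _ => by
      rw [LinearMap.toSpanSingleton_apply]
      exact Submodule.smul_mem _ c hy)
    (fun c _ hc => by
      rw [LinearMap.toSpanSingleton_apply] at hc
      by_contra h
      apply h0
      have h2 : c⁻¹ • c • y = c⁻¹ • (0 : Pleth B a m) := congrArg _ hc
      rwa [smul_smul, inv_mul_cancel₀ h, one_smul, smul_zero] at h2)
  rwa [finrank_top, Module.finrank_self] at h1

/-- **[N4b]** -/
theorem powS (hZ : ZedS) : PowS := by
  intro n B a m al
  induction B with
  | zero =>
    rw [pow_zero, Nat.mul_zero, Nat.factorial_zero, Nat.one_mul]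
    have h0 : (fun i => 0 * al i) = (0 : Fin m → ℕ) := by
      funext i
      simp
    rw [h0]
    exact one_le_of_pos (Vale.Agent.P181.FR.Pos.zero a m)
  | succ B ih =>
    have h1 := hZ (n * B) n a m (fun i => B * al i) al
    have h2 : (fun i => B * al i + al i) = fun i => (B + 1) * al i := by
      funext i
      ring
    rw [h2] at h1
    have h3 : (n * B + n).factorial =
        (n * B + n).choose (n * B) * (n * B).factorial * n.factorial := by
      have := Nat.choose_mul_factorial_mul_factorial (Nat.le_add_right (n * B) n)
      rw [Nat.add_sub_cancel_left] at this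
      exact this.symm
    calc (n.factorial * plethMult n a m al) ^ (B + 1)
        = (n.factorial * plethMult n a m al) ^ B * (n.factorial * plethMult n a m al) := pow_succ _ _
      _ ≤ ((n * B).factorial * plethMult (n * B) a m (fun i => B * al i)) *
          (n.factorial * plethMult n a m al) := Nat.mul_le_mul_right _ ih
      _ = (n * B).factorial * n.factorial *
          (plethMult (n * B) a m (fun i => B * al i) * plethMult n a m al) := by ring
      _ ≤ (n * B).factorial * n.factorial *
          ((n * B + n).choose (n * B) * plethMult (n * B + n) a m fun i => (B + 1) * al i) :=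
          Nat.mul_le_mul_left _ h1
      _ = (n * B + n).factorial * plethMult (n * B + n) a m (fun i => (B + 1) * al i) := by
          rw [h3]; ring
      _ = (n * (B + 1)).factorial * plethMult (n * (B + 1)) a m (fun i => (B + 1) * al i) := by
          rw [Nat.mul_succ]

end Vale.Agent.P181.NR.H948
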